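import Vale.Agent.P330.H241.Defs

/-!
# NAND programs for the circuits of an instance of End-of-Line

A Boolean circuit is translated into a list of NAND gates; the gate number `k` of the list has the
number `n + k` (cells `0, …, n - 1` are the inputs) and reads two cells with smaller numbers.

`progS I M n1` is the program with `M` cells which computes both circuits of `I`: the output bit `i`
of `S` is the cell `M - 2 * n1 + i`, the output bit `i` of `P` is the cell `M - n1 + i`.
-/

namespace Vale.Agent.P330.H633

/-- Values of all cells, as a list. -/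
def vals (p : List (ℕ × ℕ)) (x : List Bool) : List Bool :=
  p.foldl (fun w g => w ++ [!(w.getD g.1 false && w.getD g.2 false)]) x

/-- Value of a cell. -/
def nv (p : List (ℕ × ℕ)) (x : List Bool) (i : ℕ) : Bool := (vals p x).getD i false

theorem vals_append (p q : List (ℕ × ℕ)) (x : List Bool) : vals (p ++ q) x = vals q (vals p x) := by
  simp [vals]

theorem vals_length (p : List (ℕ × ℕ)) (x : List Bool) :
    (vals p x).length = x.length + p.length := by
  induction p generalizing x with
  | nil => rfl
  | cons g p ih =>
    show (vals p _).length = _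
    rw [ih]
    simp
    omega

/-- One more gate. -/
theorem nv_snoc {p : List (ℕ × ℕ)} {x : List Bool} (a b : ℕ) (i : ℕ) :
    nv (p ++ [(a, b)]) x i =
      if i = x.length + p.length then !(nv p x a && nv p x b) else nv p x i := by
  unfold nv
  rw [vals_append]
  show ((vals p x) ++ [_]).getD i false = _
  rw [List.getD_eq_getElem?_getD, List.getElem?_append, vals_length]
  split_ifs with h1 h2 h2
  · omega
  · rw [List.getD_eq_getElem?_getD]
  · subst h2; simp
  · rw [List.getElem?_eq_none (by simp; omega), List.getD_eq_getElem?_getD,
      List.getElem?_eq_none (by rw [vals_length]; omega)]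

theorem nv_nil (x : List Bool) (i : ℕ) : nv [] x i = x.getD i false := rfl

theorem nv_prefix {p p' : List (ℕ × ℕ)} (h : p <+: p') {x : List Bool} {c : ℕ}
    (hc : c < x.length + p.length) : nv p' x c = nv p x c := by
  obtain ⟨q, rfl⟩ := h
  induction q using List.reverseRecOn with
  | nil => rw [List.append_nil]
  | append_singleton q g ih =>
    obtain ⟨a, b⟩ := g
    rw [← List.append_assoc, nv_snoc, if_neg]
    · exact ih
    · rw [List.length_append]
      omega

/-- Every gate reads earlier cells. -/
def Below (n : ℕ) (p : List (ℕ × ℕ)) : Prop :=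
  ∀ k, ∀ h : k < p.length, p[k].1 < n + k ∧ p[k].2 < n + k

theorem Below.snoc {n : ℕ} {p : List (ℕ × ℕ)} {a b : ℕ} (h : Below n p) (ha : a < n + p.length)
    (hb : b < n + p.length) : Below n (p ++ [(a, b)]) := by
  intro k hk
  simp only [List.length_append, List.length_cons, List.length_nil] at hk
  by_cases hk' : k < p.length
  · rw [List.getElem_append_left hk']
    exact h k hk'
  · have e : k = p.length := by omega
    subst e
    simp [ha, hb]

theorem Below.append {n : ℕ} {p q : List (ℕ × ℕ)} (h : Below n p)
    (hq : ∀ g ∈ q, g.1 < n + p.length ∧ g.2 < n + p.length) : Below n (p ++ q) := by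
  intro k hk
  by_cases hk' : k < p.length
  · rw [List.getElem_append_left hk']
    exact h k hk'
  · rw [List.getElem_append_right (by omega)]
    have := hq _ (List.getElem_mem (l := q) (n := k - p.length) (by
      rw [List.length_append] at hk
      omega))
    omega

theorem nv_inp (p : List (ℕ × ℕ)) (x : List Bool) {i : ℕ} (hi : i < x.length) :
    nv p x i = x.getD i false :=
  nv_prefix (p := []) (List.nil_prefix) (by simpa using hi)

theorem nv_rule (p : List (ℕ × ℕ)) (x : List Bool) (hp : Below x.length p) {k : ℕ}
    (hk : k < p.length) :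
    nv p x (x.length + k) = !(nv p x p[k].1 && nv p x p[k].2) := by
  have h1 : p.take (k + 1) <+: p := List.take_prefix _ _
  have h0 : p.take k <+: p := List.take_prefix _ _
  have hb := hp k hk
  rw [nv_prefix h1 (by rw [List.length_take]; omega)]
  rw [List.take_succ_eq_append_getElem hk]
  have e : p[k] = (p[k].1, p[k].2) := rfl
  rw [e, nv_snoc, if_pos (by rw [List.length_take]; omega)]
  rw [nv_prefix h0 (by rw [List.length_take]; omega), nv_prefix h0 (by rw [List.length_take]; omega)]

/-! ### Translation -/

/-- The state of the translation: the list of the NAND gates, and the cells of the wires. -/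
abbrev TSt : Type := List (ℕ × ℕ) × List ℕ

/-- Translation of a gate. -/
def tG (n : ℕ) (s : TSt) : BGate → TSt
  | .and i j => (s.1 ++ [(s.2.getD i 0, s.2.getD j 0), (n + s.1.length, n + s.1.length)],
      s.2 ++ [n + s.1.length + 1])
  | .or i j => (s.1 ++ [(s.2.getD i 0, s.2.getD i 0), (s.2.getD j 0, s.2.getD j 0),
      (n + s.1.length, n + s.1.length + 1)], s.2 ++ [n + s.1.length + 2])
  | .not i => (s.1 ++ [(s.2.getD i 0, s.2.getD i 0)], s.2 ++ [n + s.1.length])

/-- Translation of a list of gates; `p` is the program up to now. -/
def tGs (n : ℕ) (gs : List BGate) (p : List (ℕ × ℕ)) : TSt := gs.foldl (tG n) (p, List.range n)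

/-- The invariant: `w` are the values of the wires on the input `x`. -/
structure TInv (n : ℕ) (x w : List Bool) (s : TSt) : Prop where
  below : Below n s.1
  lenx : x.length = n
  len : s.2.length = w.length
  lt : ∀ j, j < w.length → s.2.getD j 0 < n + s.1.length
  val : ∀ j, j < w.length → nv s.1 x (s.2.getD j 0) = w.getD j false

variable {n : ℕ} {x w : List Bool} {s : TSt}

/-- One more gate, which does not belong to a wire. -/
theorem TInv.gate (h : TInv n x w s) {a b : ℕ} (ha : a < n + s.1.length)
    (hb : b < n + s.1.length) : TInv n x w (s.1 ++ [(a, b)], s.2) := by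
  refine ⟨h.below.snoc ha hb, h.lenx, h.len, fun i hi => ?_, fun i hi => ?_⟩
  · have := h.lt i hi
    simp only [List.length_append, List.length_cons, List.length_nil]
    omega
  · rw [nv_snoc, h.lenx]
    have := h.lt i hi
    rw [if_neg (by simp only; omega)]
    exact h.val i hi

/-- One more gate, for a new wire. -/
theorem TInv.push (h : TInv n x w s) {a b : ℕ} (ha : a < n + s.1.length)
    (hb : b < n + s.1.length) {v : Bool} (hv : (!(nv s.1 x a && nv s.1 x b)) = v) :
    TInv n x (w ++ [v]) (s.1 ++ [(a, b)], s.2 ++ [n + s.1.length]) := by
  have key : ∀ i, i < (w ++ [v]).length →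
      (s.2 ++ [n + s.1.length]).getD i 0 < n + (s.1 ++ [(a, b)]).length ∧
      nv (s.1 ++ [(a, b)]) x ((s.2 ++ [n + s.1.length]).getD i 0) = (w ++ [v]).getD i false := by
    intro i hi
    simp only [List.length_append, List.length_cons, List.length_nil] at hi ⊢
    rw [nv_snoc, h.lenx]
    by_cases hi' : i < w.length
    · have hl := h.lt i hi'
      have e1 : (s.2 ++ [n + s.1.length]).getD i 0 = s.2.getD i 0 := by
        have : i < s.2.length := by rw [h.len]; exact hi'
        simp [List.getD_eq_getElem?_getD, List.getElem?_append_left this]
      have e2 : (w ++ [v]).getD i false = w.getD i false := by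
        simp [List.getD_eq_getElem?_getD, List.getElem?_append_left hi']
      rw [e1, e2, if_neg (by omega)]
      exact ⟨by omega, h.val i hi'⟩
    · have e : i = w.length := by omega
      subst e
      have e1 : (s.2 ++ [n + s.1.length]).getD w.length 0 = n + s.1.length := by
        rw [← h.len]
        simp [List.getD_eq_getElem?_getD]
      have e2 : (w ++ [v]).getD w.length false = v := by
        simp [List.getD_eq_getElem?_getD]
      rw [e1, e2, if_pos rfl]
      exact ⟨by omega, hv⟩
  exact ⟨h.below.snoc ha hb, h.lenx, by simp [h.len], fun i hi => (key i hi).1,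
    fun i hi => (key i hi).2⟩

theorem TInv.tG (h : TInv n x w s) {g : BGate} (hg : g.Below w.length) :
    TInv n x (w ++ [g.eval w]) (tG n s g) := by
  cases g with
  | not i =>
    have hi : i < w.length := hg
    have l1 := h.lt i hi
    exact h.push l1 l1 (by rw [h.val i hi, Bool.and_self]; rfl)
  | and i j =>
    have hi : i < w.length := hg.1
    have hj : j < w.length := hg.2
    have l1 := h.lt i hi
    have l2 := h.lt j hj
    have h1 := h.gate l1 l2
    have h2 := h1.push (a := n + s.1.length) (b := n + s.1.length)
      (v := w.getD i false && w.getD j false)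
      (by simp only [List.length_append, List.length_cons, List.length_nil]; omega)
      (by simp only [List.length_append, List.length_cons, List.length_nil]; omega)
      (by
        have v1 : nv (s.1 ++ [(s.2.getD i 0, s.2.getD j 0)]) x (n + s.1.length) =
            !(w.getD i false && w.getD j false) := by
          rw [nv_snoc, h.lenx, if_pos rfl, h.val i hi, h.val j hj]
        simp only [v1, Bool.and_self, Bool.not_not])
    have e : H633.tG n s (.and i j) = ((s.1 ++ [(s.2.getD i 0, s.2.getD j 0)]) ++
        [(n + s.1.length, n + s.1.length)],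
        s.2 ++ [n + (s.1 ++ [(s.2.getD i 0, s.2.getD j 0)]).length]) := by
      simp [H633.tG, add_assoc]
    rw [e]
    exact h2
  | or i j =>
    have hi : i < w.length := hg.1
    have hj : j < w.length := hg.2
    have l1 := h.lt i hi
    have l2 := h.lt j hj
    have h1 := h.gate l1 l1
    have h2 := h1.gate (a := s.2.getD j 0) (b := s.2.getD j 0)
      (by simp only [List.length_append, List.length_cons, List.length_nil]; omega)
      (by simp only [List.length_append, List.length_cons, List.length_nil]; omega)
    have h3 := h2.push (a := n + s.1.length) (b := n + s.1.length + 1)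
      (v := w.getD i false || w.getD j false)
      (by simp only [List.length_append, List.length_cons, List.length_nil]; omega)
      (by simp only [List.length_append, List.length_cons, List.length_nil]; omega)
      (by
        have v1 : nv ((s.1 ++ [(s.2.getD i 0, s.2.getD i 0)]) ++
            [(s.2.getD j 0, s.2.getD j 0)]) x (n + s.1.length) = !w.getD i false := by
          rw [nv_snoc, h.lenx, if_neg (by simp), nv_snoc, h.lenx, if_pos rfl, h.val i hi,
            Bool.and_self]
        have v2 : nv ((s.1 ++ [(s.2.getD i 0, s.2.getD i 0)]) ++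
            [(s.2.getD j 0, s.2.getD j 0)]) x (n + s.1.length + 1) = !w.getD j false := by
          rw [nv_snoc, h.lenx, if_pos (by simp; omega), nv_snoc, h.lenx, if_neg (by omega),
            h.val j hj, Bool.and_self]
        simp only [v1, v2]
        cases w.getD i false <;> cases w.getD j false <;> rfl)
    have e : H633.tG n s (.or i j) = (((s.1 ++ [(s.2.getD i 0, s.2.getD i 0)]) ++
        [(s.2.getD j 0, s.2.getD j 0)]) ++ [(n + s.1.length, n + s.1.length + 1)],
        s.2 ++ [n + ((s.1 ++ [(s.2.getD i 0, s.2.getD i 0)]) ++
          [(s.2.getD j 0, s.2.getD j 0)]).length]) := by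
      simp [H633.tG, add_assoc]
    rw [e]
    exact h3

theorem prefix_tG (n : ℕ) (g : BGate) (s : TSt) : s.1 <+: (tG n s g).1 := by
  cases g <;> exact List.prefix_append _ _

theorem tG_length_le (n : ℕ) (g : BGate) (s : TSt) : (tG n s g).1.length ≤ s.1.length + 3 := by
  cases g <;> simp [tG]

theorem TInv.foldl (gs : List BGate) (h : TInv n x w s)
    (hg : ∀ k, ∀ hk : k < gs.length, gs[k].Below (w.length + k)) :
    TInv n x (gs.foldl (fun w g => w ++ [g.eval w]) w) (gs.foldl (H633.tG n) s) ∧
      s.1 <+: (gs.foldl (H633.tG n) s).1 := by
  induction gs generalizing w s with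
  | nil => exact ⟨h, List.prefix_rfl⟩
  | cons g gs ih =>
    have h1 := h.tG (g := g) (by
      have := hg 0 (by simp)
      simpa using this)
    have h2 := ih h1 (fun k hk => by
      have := hg (k + 1) (by simpa using hk)
      simp only [List.getElem_cons_succ] at this
      rw [List.length_append, List.length_cons, List.length_nil]
      rw [show w.length + (0 + 1) + k = w.length + (k + 1) by omega]
      exact this)
    exact ⟨h2.1, (prefix_tG n g s).trans h2.2⟩

theorem foldl_length_le (n : ℕ) (gs : List BGate) (s : TSt) :
    (gs.foldl (tG n) s).1.length ≤ s.1.length + 3 * gs.length := by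
  induction gs generalizing s with
  | nil => simp
  | cons g gs ih =>
    rw [List.foldl_cons]
    have h1 := ih (tG n s g)
    have h2 := tG_length_le n g s
    simp only [List.length_cons]
    omega

theorem foldl_wires_len (gs : List BGate) (w : List Bool) :
    (gs.foldl (fun w g => w ++ [g.eval w]) w).length = w.length + gs.length := by
  induction gs generalizing w with
  | nil => rfl
  | cons g gs ih =>
    rw [List.foldl_cons, ih]
    simp
    omega

theorem tinv_start {p : List (ℕ × ℕ)} (hp : Below n p) (hx : x.length = n) :
    TInv n x x (p, List.range n) := by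
  refine ⟨hp, hx, by simp [hx], fun j hj => ?_, fun j hj => ?_⟩
  · have hj' : j < n := by omega
    have e : (List.range n).getD j 0 = j := by simp [List.getD_eq_getElem?_getD, hj']
    simp only [e]
    omega
  · have hj' : j < n := by omega
    have e : (List.range n).getD j 0 = j := by simp [List.getD_eq_getElem?_getD, hj']
    simp only [e]
    exact nv_inp p x hj

/-- The cells of the outputs. -/
def outC (C : BoolCircuit) (n : ℕ) (p : List (ℕ × ℕ)) : List ℕ :=
  C.outs.map fun j => (tGs n C.gates p).2.getD j 0

/-- Translation of a circuit. -/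
theorem tGs_spec {C : BoolCircuit} {p : List (ℕ × ℕ)} (hp : Below n p) (hC : C.IsCircuit n)
    (hx : x.length = n) :
    Below n (tGs n C.gates p).1 ∧ p <+: (tGs n C.gates p).1 ∧
    (∀ c ∈ outC C n p, c < n + (tGs n C.gates p).1.length) ∧
    (outC C n p).map (nv (tGs n C.gates p).1 x) = C.eval x := by
  obtain ⟨h1, h2⟩ := (tinv_start hp hx).foldl C.gates (by rw [hx]; exact hC.2.2)
  have hl := foldl_wires_len C.gates x
  refine ⟨h1.below, h2, ?_, ?_⟩
  · intro c hc
    obtain ⟨j, hj, rfl⟩ := List.mem_map.1 hc
    exact h1.lt j (by rw [hl, hx]; exact hC.2.1 j hj)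
  · unfold outC
    rw [List.map_map]
    refine List.map_congr_left fun j hj => ?_
    exact h1.val j (by rw [hl, hx]; exact hC.2.1 j hj)

/-! ### The program of an instance -/

variable (I : EndOfLine)

/-- The gates of `S`. -/
def pS : List (ℕ × ℕ) := (tGs I.n I.S.gates []).1

/-- The gates of `S` and `P`. -/
def pP : List (ℕ × ℕ) := (tGs I.n I.P.gates (pS I)).1

/-- The gates of `S` and `P`, and the negations of the outputs. -/
def pN : List (ℕ × ℕ) :=
  pP I ++ ((outC I.S I.n []) ++ (outC I.P I.n (pS I))).map fun c => (c, c)

/-- The gate of the cell `c` after the gates `pN`. -/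
def tail (M n1 c : ℕ) : ℕ × ℕ :=
  if M - 2 * n1 ≤ c ∧ c < M - 2 * n1 + I.n then
    (I.n + (pP I).length + (c - (M - 2 * n1)), I.n + (pP I).length + (c - (M - 2 * n1)))
  else if M - n1 ≤ c ∧ c < M - n1 + I.n then
    (I.n + (pP I).length + I.n + (c - (M - n1)), I.n + (pP I).length + I.n + (c - (M - n1)))
  else (0, 0)

/-- The program with `M` cells. -/
def progS (M n1 : ℕ) : List (ℕ × ℕ) :=
  pN I ++ (List.range (M - (I.n + (pN I).length))).map fun r =>
    tail I M n1 (I.n + (pN I).length + r)

theorem outC_length_S : (outC I.S I.n []).length = I.n := by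
  unfold outC
  rw [List.length_map]
  exact I.circuit_S.1

theorem outC_length_P : (outC I.P I.n (pS I)).length = I.n := by
  unfold outC
  rw [List.length_map]
  exact I.circuit_P.1

theorem pN_length : (pN I).length = (pP I).length + 2 * I.n := by
  unfold pN
  rw [List.length_append, List.length_map, List.length_append, outC_length_S, outC_length_P]
  omega

theorem pP_length_le : (pP I).length ≤ 3 * (I.S.gates.length + I.P.gates.length) := by
  have h1 : (pS I).length ≤ _ := foldl_length_le I.n I.S.gates ([], List.range I.n)
  have h2 : (pP I).length ≤ _ := foldl_length_le I.n I.P.gates (pS I, List.range I.n)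
  simp only [List.length_nil] at h1 h2
  omega

/-- Size of the program without the padding. -/
theorem pN_length_le :
    (pN I).length ≤ 3 * (I.S.gates.length + I.P.gates.length) + 2 * I.n := by
  have h1 := pN_length I
  have h2 := pP_length_le I
  omega

variable {I} {M n1 : ℕ}

theorem progS_length (hM : I.n + (pN I).length ≤ M) : I.n + (progS I M n1).length = M := by
  unfold progS
  rw [List.length_append, List.length_map, List.length_range]
  omega

theorem pS_spec {x : List Bool} (hx : x.length = I.n) :
    Below I.n (pS I) ∧ (∀ c ∈ outC I.S I.n [], c < I.n + (pS I).length) ∧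
    (outC I.S I.n []).map (nv (pS I) x) = I.S.eval x := by
  obtain ⟨h1, -, h2, h3⟩ := tGs_spec (n := I.n) (p := []) (fun k hk => by simp at hk)
    I.circuit_S hx
  exact ⟨h1, h2, h3⟩

theorem pP_spec {x : List Bool} (hx : x.length = I.n) :
    Below I.n (pP I) ∧ pS I <+: pP I ∧
    (∀ c ∈ outC I.P I.n (pS I), c < I.n + (pP I).length) ∧
    (outC I.P I.n (pS I)).map (nv (pP I) x) = I.P.eval x :=
  tGs_spec (n := I.n) (p := pS I) (pS_spec hx).1 I.circuit_P hx

theorem pN_below : Below I.n (pN I) := by
  have hx : (List.replicate I.n false).length = I.n := by simp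
  obtain ⟨h1, h2, h3, -⟩ := pP_spec (I := I) hx
  obtain ⟨-, h4, -⟩ := pS_spec (I := I) hx
  refine h1.append fun g hg => ?_
  obtain ⟨c, hc, rfl⟩ := List.mem_map.1 hg
  rcases List.mem_append.1 hc with hc | hc
  · have := h4 c hc
    have := h2.length_le
    simp only
    omega
  · exact ⟨h3 c hc, h3 c hc⟩

/-- Every gate reads earlier cells. -/
theorem progS_below : Below I.n (progS I M n1) := by
  intro k hk
  have h0 := I.one_le
  have h1 := pN_length I
  unfold progS at hk ⊢
  by_cases hk' : k < (pN I).length
  · rw [List.getElem_append_left hk']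
    exact pN_below k hk'
  · rw [List.getElem_append_right (by omega)]
    simp only [List.getElem_map, List.getElem_range]
    unfold tail
    split_ifs <;> simp only <;> omega

/-- The values of the output cells, for every function with the values of the inputs and the rule
of the gates. -/
theorem progS_val (hn : I.n ≤ n1) (hM : I.n + (pN I).length + 2 * n1 ≤ M) {x : List Bool}
    (hx : x.length = I.n) {v : ℕ → Bool} (hv : ∀ c < I.n, v c = x.getD c false)
    (hv' : ∀ c, I.n ≤ c → c < M → v c = !(v ((progS I M n1).getD (c - I.n) (0, 0)).1 &&
      v ((progS I M n1).getD (c - I.n) (0, 0)).2)) {i : ℕ} (hi : i < I.n) :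
    v (M - 2 * n1 + i) = (I.S.eval x).getD i false ∧
    v (M - n1 + i) = (I.P.eval x).getD i false := by
  have h0 := I.one_le
  have hlN := pN_length I
  obtain ⟨hP1, hP2, hP3, hP4⟩ := pP_spec (I := I) hx
  obtain ⟨hS1, hS2, hS3⟩ := pS_spec (I := I) hx
  have hle := hP2.length_le
  have hget : ∀ c, I.n ≤ c → c < I.n + (pN I).length →
      (progS I M n1).getD (c - I.n) (0, 0) = (pN I).getD (c - I.n) (0, 0) := by
    intro c h1 h2
    unfold progS
    rw [List.getD_eq_getElem?_getD, List.getElem?_append_left (by omega),
      ← List.getD_eq_getElem?_getD]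
  have hget' : ∀ c, I.n + (pN I).length ≤ c → c < M →
      (progS I M n1).getD (c - I.n) (0, 0) = tail I M n1 c := by
    intro c h1 h2
    unfold progS
    rw [List.getD_eq_getElem?_getD, List.getElem?_append_right (by omega), List.getElem?_map,
      List.getElem?_range (by omega)]
    simp only [Option.map_some, Option.getD_some]
    congr 1
    omega
  have hbN := pN_below (I := I)
  -- the values of the first cells
  have hval : ∀ c, c < I.n + (pN I).length → v c = nv (pN I) x c := by
    intro c
    induction c using Nat.strong_induction_on with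
    | _ c ih =>
      intro hc
      by_cases hcn : c < I.n
      · rw [hv c hcn, nv_inp _ _ (by omega)]
      · have h3 : c - I.n < (pN I).length := by omega
        have h4 := nv_rule (pN I) x (by rw [hx]; exact hbN) h3
        rw [hx, show I.n + (c - I.n) = c by omega] at h4
        rw [h4, hv' c (by omega) (by omega), hget c (by omega) hc]
        have e : (pN I).getD (c - I.n) (0, 0) = (pN I)[c - I.n] := by
          simp [List.getD_eq_getElem?_getD, h3]
        have h5 := hbN (c - I.n) h3
        rw [e, ih _ (by omega) (by omega), ih _ (by omega) (by omega)]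
  -- the negations
  have hneg : ∀ j, ∀ hj : j < ((outC I.S I.n []) ++ (outC I.P I.n (pS I))).length,
      v (I.n + (pP I).length + j) =
        !(nv (pP I) x (((outC I.S I.n []) ++ (outC I.P I.n (pS I)))[j])) := by
    intro j hj
    have hj' : j < 2 * I.n := by
      rw [List.length_append, outC_length_S, outC_length_P] at hj
      omega
    rw [hval _ (by omega)]
    have h3 : (pP I).length + j < (pN I).length := by omega
    have h4 := nv_rule (pN I) x (by rw [hx]; exact hbN) h3
    rw [hx, ← add_assoc] at h4
    rw [h4]
    have e : (pN I)[(pP I).length + j] = ((((outC I.S I.n []) ++ (outC I.P I.n (pS I)))[j]),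
        (((outC I.S I.n []) ++ (outC I.P I.n (pS I)))[j])) := by
      have e1 : (pN I)[(pP I).length + j]? =
          some ((((outC I.S I.n []) ++ (outC I.P I.n (pS I)))[j]),
          (((outC I.S I.n []) ++ (outC I.P I.n (pS I)))[j])) := by
        unfold pN
        rw [List.getElem?_append_right (by omega), Nat.add_sub_cancel_left, List.getElem?_map,
          List.getElem?_eq_getElem hj]
        rfl
      exact Option.some.inj ((List.getElem?_eq_getElem h3).symm.trans e1)
    have hpre : pP I <+: pN I := List.prefix_append _ _
    rw [e]
    simp only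
    rw [Bool.and_self, nv_prefix hpre]
    rw [hx]
    have hm := List.getElem_mem hj
    rcases List.mem_append.1 hm with hm | hm
    · have := hS2 _ hm
      omega
    · exact hP3 _ hm
  constructor
  · have h1 : I.n + (pN I).length ≤ M - 2 * n1 + i := by omega
    have h2 : M - 2 * n1 + i < M := by omega
    rw [hv' _ (by omega) h2, hget' _ h1 h2]
    unfold tail
    rw [if_pos ⟨by omega, by omega⟩, show M - 2 * n1 + i - (M - 2 * n1) = i by omega,
      Bool.and_self, hneg i (by rw [List.length_append, outC_length_S]; omega), Bool.not_not]
    rw [← hS3]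
    have hi' : i < (outC I.S I.n []).length := by rw [outC_length_S]; exact hi
    rw [List.getD_eq_getElem?_getD, List.getElem?_map, List.getElem?_eq_getElem hi']
    simp only [Option.map_some, Option.getD_some]
    rw [List.getElem_append_left hi']
    refine nv_prefix hP2 ?_
    rw [hx]
    exact hS2 _ (List.getElem_mem hi')
  · have h1 : I.n + (pN I).length ≤ M - n1 + i := by omega
    have h2 : M - n1 + i < M := by omega
    rw [hv' _ (by omega) h2, hget' _ h1 h2]
    unfold tail
    rw [if_neg (by omega), if_pos ⟨by omega, by omega⟩, show M - n1 + i - (M - n1) = i by omega,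
      Bool.and_self, add_assoc (I.n + (pP I).length),
      hneg (I.n + i) (by rw [List.length_append, outC_length_S, outC_length_P]; omega), Bool.not_not]
    rw [← hP4]
    have hi' : i < (outC I.P I.n (pS I)).length := by rw [outC_length_P]; exact hi
    rw [List.getD_eq_getElem?_getD, List.getElem?_map, List.getElem?_eq_getElem hi']
    simp only [Option.map_some, Option.getD_some]
    rw [List.getElem_append_right (by rw [outC_length_S]; omega)]
    congr 1
    simp only [outC_length_S, Nat.add_sub_cancel_left]

end Vale.Agent.P330.H633
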