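import Vale.Agent.P330.H633.ProgS
import Vale.Agent.P330.PTEol

/-!
# The program of an instance in polynomial time
-/

namespace Vale.Agent.P330.H633

open Vale.Agent.Lib.PolyTime

variable {A : Set Word} {α : Type*} [Enc α]

/-! ### One gate -/

theorem tG_eq (n : ℕ) (s : TSt) (g : BGate) : tG n s g =
    if g.data.1 = 0 then
      (s.1 ++ [(s.2.getD g.data.2.1 0, s.2.getD g.data.2.2 0), (n + s.1.length, n + s.1.length)],
        s.2 ++ [n + s.1.length + 1])
    else if g.data.1 = 1 then
      (s.1 ++ [(s.2.getD g.data.2.1 0, s.2.getD g.data.2.1 0),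
        (s.2.getD g.data.2.2 0, s.2.getD g.data.2.2 0), (n + s.1.length, n + s.1.length + 1)],
        s.2 ++ [n + s.1.length + 2])
    else (s.1 ++ [(s.2.getD g.data.2.1 0, s.2.getD g.data.2.1 0)], s.2 ++ [n + s.1.length]) := by
  cases g <;> simp [BGate.data, tG]

theorem PT_tG {n : α → ℕ} {s : α → TSt} {g : α → BGate} (hn : PT A n) (hs : PT A s)
    (hg : PT A g) : PT A (fun a => tG (n a) (s a) (g a)) := by
  have hd := PT_bdata hg
  have h1 : PT A (fun a => (s a).2.getD (g a).data.2.1 0) :=
    PT.getD hs.snd hd.snd.fst (PT.const 0)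
  have h2 : PT A (fun a => (s a).2.getD (g a).data.2.2 0) :=
    PT.getD hs.snd hd.snd.snd (PT.const 0)
  have hl : PT A (fun a => n a + (s a).1.length) := hn.add hs.fst.length
  have hl1 : PT A (fun a => n a + (s a).1.length + 1) := hl.add (PT.const 1)
  have hl2 : PT A (fun a => n a + (s a).1.length + 2) := hl.add (PT.const 2)
  refine (PT.ite (PT.eqNat hd.fst (PT.const 0))
    ((hs.fst.append ((h1.pair h2).cons ((hl.pair hl).cons PT.nil))).pair
      (hs.snd.append (hl1.cons PT.nil)))
    (PT.ite (PT.eqNat hd.fst (PT.const 1))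
      ((hs.fst.append ((h1.pair h1).cons ((h2.pair h2).cons ((hl.pair hl1).cons PT.nil)))).pair
        (hs.snd.append (hl2.cons PT.nil)))
      ((hs.fst.append ((h1.pair h1).cons PT.nil)).pair
        (hs.snd.append (hl.cons PT.nil))))).congr fun a => ?_
  rw [tG_eq]

/-! ### Sizes -/

/-- All numbers of the state are small. -/
def Small (n : ℕ) (s : TSt) : Prop :=
  (∀ g ∈ s.1, g.1 ≤ n + s.1.length ∧ g.2 ≤ n + s.1.length) ∧ ∀ c ∈ s.2, c ≤ n + s.1.length

theorem Small.getD {n : ℕ} {s : TSt} (h : Small n s) (i : ℕ) : s.2.getD i 0 ≤ n + s.1.length := by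
  rw [List.getD_eq_getElem?_getD]
  rcases hi : s.2[i]? with _ | c
  · simp
  · exact h.2 c (List.mem_of_getElem? hi)

theorem Small.ext {n : ℕ} {s : TSt} (h : Small n s) {l : List (ℕ × ℕ)} {c : ℕ}
    (hl : ∀ g ∈ l, g.1 ≤ n + s.1.length + l.length ∧ g.2 ≤ n + s.1.length + l.length)
    (hc : c ≤ n + s.1.length + l.length) : Small n (s.1 ++ l, s.2 ++ [c]) := by
  constructor
  · intro g hg
    simp only [List.mem_append] at hg
    simp only [List.length_append]
    rcases hg with hg | hg
    · have := h.1 g hg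
      omega
    · have := hl g hg
      omega
  · intro d hd
    simp only [List.mem_append, List.mem_singleton] at hd
    simp only [List.length_append]
    rcases hd with hd | rfl
    · have := h.2 d hd
      omega
    · omega

theorem Small.tG {n : ℕ} {s : TSt} (h : Small n s) (g : BGate) : Small n (tG n s g) := by
  cases g with
  | and i j =>
    have h1 := h.getD i
    have h2 := h.getD j
    refine h.ext ?_ ?_
    · simp only [List.mem_cons, List.not_mem_nil, or_false, List.length_cons, List.length_nil]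
      rintro g (rfl | rfl) <;> simp only <;> omega
    · simp only [List.length_cons, List.length_nil]; omega
  | or i j =>
    have h1 := h.getD i
    have h2 := h.getD j
    refine h.ext ?_ ?_
    · simp only [List.mem_cons, List.not_mem_nil, or_false, List.length_cons, List.length_nil]
      rintro g (rfl | rfl | rfl) <;> simp only <;> omega
    · simp only [List.length_cons, List.length_nil]; omega
  | not i =>
    have h1 := h.getD i
    refine h.ext ?_ ?_
    · simp only [List.mem_cons, List.not_mem_nil, or_false, List.length_cons, List.length_nil]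
      rintro g rfl
      simp only
      omega
    · simp only [List.length_cons, List.length_nil]; omega

theorem Small.foldl {n : ℕ} (gs : List BGate) {s : TSt} (h : Small n s) :
    Small n (gs.foldl (H633.tG n) s) := by
  induction gs generalizing s with
  | nil => exact h
  | cons g gs ih => exact ih (h.tG g)

theorem foldl_snd_length (n : ℕ) (gs : List BGate) (s : TSt) :
    (gs.foldl (tG n) s).2.length = s.2.length + gs.length := by
  induction gs generalizing s with
  | nil => rfl
  | cons g gs ih =>
    rw [List.foldl_cons, ih]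
    cases g <;> simp [tG] <;> omega

theorem esize_le_of_small {n : ℕ} {s : TSt} (h : Small n s) {B C : ℕ}
    (hB : n + s.1.length ≤ B) (hC : s.2.length ≤ C) :
    esize s ≤ 2 * (B * (2 * (3 * B + 1) + 1)) + C * (2 * B + 1) + 1 := by
  have h1 : esize s.1 ≤ s.1.length * (2 * (3 * B + 1) + 1) := by
    refine esize_list_le fun g hg => ?_
    obtain ⟨g1, g2⟩ := g
    have h2 := h.1 _ hg
    simp only at h2
    rw [esize_pair]
    have h3 := esize_nat_le_self g1
    have h4 := esize_nat_le_self g2
    omega
  have h2 : esize s.2 ≤ s.2.length * (2 * B + 1) := by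
    refine esize_list_le fun c hc => ?_
    have h3 := h.2 c hc
    have h4 := esize_nat_le_self c
    omega
  have h3 : esize s = 2 * esize s.1 + esize s.2 + 1 := esize_pair s.1 s.2
  have h4 : s.1.length * (2 * (3 * B + 1) + 1) ≤ B * (2 * (3 * B + 1) + 1) :=
    Nat.mul_le_mul_right _ (by omega)
  have h5 : s.2.length * (2 * B + 1) ≤ C * (2 * B + 1) := Nat.mul_le_mul_right _ hC
  omega

theorem small_start {n : ℕ} {p : List (ℕ × ℕ)}
    (hp : ∀ g ∈ p, g.1 ≤ n + p.length ∧ g.2 ≤ n + p.length) : Small n (p, List.range n) :=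
  ⟨hp, fun c hc => by
    rw [List.mem_range] at hc
    simp only
    omega⟩

theorem PT_tGs {n : α → ℕ} {gs : α → List BGate} {p : α → List (ℕ × ℕ)} (hn : PT A n)
    (hn' : PBd n) (hg : PT A gs) (hp : PT A p)
    (hs : ∀ a, ∀ g ∈ p a, g.1 ≤ n a + (p a).length ∧ g.2 ≤ n a + (p a).length) :
    PT A (fun a => tGs (n a) (gs a) (p a)) := by
  unfold tGs
  have hB : PBd (fun a => n a + (p a).length + 3 * (gs a).length) :=
    (hn'.add (PBd.length hp)).add ((PBd.const 3).mul (PBd.length hg))
  have hC : PBd (fun a => n a + (gs a).length) := hn'.add (PBd.length hg)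
  have hb := (((PBd.const 2).mul (hB.mul (((PBd.const 2).mul (((PBd.const 3).mul hB).add
    (PBd.const 1))).add (PBd.const 1)))).add (hC.mul (((PBd.const 2).mul hB).add
      (PBd.const 1)))).add (PBd.const 1)
  refine PT.foldl (f := fun a => tG (n a)) hg (hp.pair (PT.range hn hn'))
    (PT_tG (hn.comp PT.fst') PT.snd'.fst PT.snd'.snd) hb ?_
  intro a i
  have h1 : ((gs a).take i).length ≤ (gs a).length := by
    rw [List.length_take]
    exact min_le_right _ _
  have h2 := foldl_length_le (n a) ((gs a).take i) (p a, List.range (n a))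
  have h3 := foldl_snd_length (n a) ((gs a).take i) (p a, List.range (n a))
  simp only [List.length_range] at h3
  refine esize_le_of_small (Small.foldl _ (small_start (hs a))) ?_ ?_
  · simp only at h2
    omega
  · rw [h3]
    omega

theorem PT_outC {C : α → BoolCircuit} {n : α → ℕ} {p : α → List (ℕ × ℕ)} (hC : PT A C)
    (hn : PT A n) (hn' : PBd n) (hp : PT A p)
    (hs : ∀ a, ∀ g ∈ p a, g.1 ≤ n a + (p a).length ∧ g.2 ≤ n a + (p a).length) :
    PT A (fun a => outC (C a) (n a) (p a)) := by
  unfold outC
  exact PT.map (PT_bouts hC) (PT.getD ((PT_tGs hn hn' (PT_bgates hC) hp hs).snd.comp PT.fst')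
    PT.snd' (PT.const 0))

/-! ### The program -/

variable {I : α → EndOfLine} {M n1 : α → ℕ}

theorem small_pS (I : EndOfLine) :
    ∀ g ∈ pS I, g.1 ≤ I.n + (pS I).length ∧ g.2 ≤ I.n + (pS I).length :=
  (Small.foldl I.S.gates (small_start (n := I.n) (p := []) (by simp))).1

theorem PT_pS (hI : PT A I) : PT A (fun a => pS (I a)) := by
  unfold pS
  exact (PT_tGs (PT_eolN hI) (PBd_eolN hI) (PT_bgates (PT_eolS hI)) (PT.const [])
    (by simp)).fst

theorem PT_pP (hI : PT A I) : PT A (fun a => pP (I a)) := by
  unfold pP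
  exact (PT_tGs (PT_eolN hI) (PBd_eolN hI) (PT_bgates (PT_eolP hI)) (PT_pS hI)
    (fun a => small_pS (I a))).fst

theorem PT_pN (hI : PT A I) : PT A (fun a => pN (I a)) := by
  unfold pN
  refine (PT_pP hI).append (PT.map (PT.append ?_ ?_) (PT.snd'.pair PT.snd'))
  · exact PT_outC (PT_eolS hI) (PT_eolN hI) (PBd_eolN hI) (PT.const []) (by simp)
  · exact PT_outC (PT_eolP hI) (PT_eolN hI) (PBd_eolN hI) (PT_pS hI) (fun a => small_pS (I a))

theorem PT_tail (hI : PT A I) (hM : PT A M) (hn1 : PT A n1) {c : α → ℕ} (hc : PT A c) :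
    PT A (fun a => tail (I a) (M a) (n1 a) (c a)) := by
  unfold tail
  have hn := PT_eolN hI
  have hl : PT A (fun a => (I a).n + (pP (I a)).length) := hn.add (PT_pP hI).length
  have hS : PT A (fun a => M a - 2 * n1 a) := hM.sub ((PT.const 2).mul hn1)
  have hP : PT A (fun a => M a - n1 a) := hM.sub hn1
  have h1 := hl.add (hc.sub hS)
  have h2 := (hl.add hn).add (hc.sub hP)
  exact PT.ite (PT.decide_and (PT.le hS hc) (PT.lt hc (hS.add hn))) (h1.pair h1)
    (PT.ite (PT.decide_and (PT.le hP hc) (PT.lt hc (hP.add hn))) (h2.pair h2) (PT.const (0, 0)))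

/-- **The program of the instance is computed in polynomial time.** -/
theorem PT_progS (hI : PT A I) (hM : PT A M) (hM' : PBd M) (hn1 : PT A n1) :
    PT A (fun a => progS (I a) (M a) (n1 a)) := by
  unfold progS
  have hl : PT A (fun a => (I a).n + (pN (I a)).length) := (PT_eolN hI).add (PT_pN hI).length
  refine (PT_pN hI).append (PT.map (PT.range (hM.sub hl) (hM'.mono fun a => Nat.sub_le _ _)) ?_)
  exact PT_tail (hI.comp PT.fst') (hM.comp PT.fst') (hn1.comp PT.fst')
    ((hl.comp PT.fst').add PT.snd')

end Vale.Agent.P330.H633
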