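import Vale.Agent.P330.H633.MPPT
import Vale.Agent.P330.H633.ProgPT
import Vale.Agent.P330.H743.Comp

/-!
# The tables of the machine of an instance of End-of-Line, in polynomial time

`mdI`: the family of the machines `mpI` of the instances `I a`, as a family `MD`.
-/

namespace Vale.Agent.P330.H633

open Vale.Agent.Lib.PolyTime Vale.Agent.P330.H16 Vale.Agent.P330.H874 Vale.Agent.P330.H743

variable {A : Set Word} {α : Type*} [Enc α]

theorem PT_prI {I : α → EndOfLine} {k e : α → ℕ} (hI : PT A I) (hk : PT A k)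
    (hb : PBd fun a => 2 ^ k a) (he : PT A e) (heb : PBd fun a => 2 ^ e a) :
    PT A fun a => prI (I a) (k a) (e a) := by
  have hk2 : PBd fun a => k a - 2 := (PBd_of_two_pow hb).mono fun a => Nat.sub_le _ _
  exact PT_progS hI (PT.pow (PT.const 2) (hk.sub (PT.const 2)) hk2)
    (hb.mono fun a => Nat.pow_le_pow_right (by norm_num) (Nat.sub_le _ _))
    (PT.pow (PT.const 2) he (PBd_of_two_pow heb))

theorem PT_offB {k e : α → ℕ} (hk : PT A k) (hb : PBd fun a => 2 ^ k a) (he : PT A e)
    (heb : PBd fun a => 2 ^ e a) (z : Bool) : PT A fun a => offB (k a) (e a) z := by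
  have hk2 : PBd fun a => k a - 2 := (PBd_of_two_pow hb).mono fun a => Nat.sub_le _ _
  have h1 : PT A fun a => 2 ^ (k a - 2) := PT.pow (PT.const 2) (hk.sub (PT.const 2)) hk2
  have h2 : PT A fun a => 2 ^ e a := PT.pow (PT.const 2) he (PBd_of_two_pow heb)
  unfold offB outB
  refine PT.add (PT.mul (PT.const 4) ?_) (PT.const 2)
  cases z
  · exact (h1.sub (PT.mul (PT.const 2) h2)).congr fun a => by simp
  · exact (h1.sub h2).congr fun a => by simp

/-- The machines of the instances. -/
def mdI {I : α → EndOfLine} {k e κ : α → ℕ} (hI : PT A I) (hk : PT A k)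
    (hb : PBd fun a => 2 ^ k a) (he : PT A e) (heb : PBd fun a => 2 ^ e a) : MD A α where
  n a := (I a).n
  P a := prI (I a) (k a) (e a)
  k := k
  κ := κ
  off a := offB (k a) (e a)
  hn := PT_eolN hI
  hP := PT_prI hI hk hb he heb
  hk := hk
  hb := hb
  hoff := PT_offB hk hb he heb

theorem mdI_M {I : α → EndOfLine} {k e κ : α → ℕ} (hI : PT A I) (hk : PT A k)
    (hb : PBd fun a => 2 ^ k a) (he : PT A e) (heb : PBd fun a => 2 ^ e a) (a : α) :
    (mdI (κ := κ) hI hk hb he heb).M a = mpI (I a) (k a) (e a) (κ a) := rfl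

/-! ### Sizes -/

theorem clog_two_eq {n : ℕ} (hn : 1 ≤ n) : Nat.clog 2 n = Nat.size (n - 1) := by
  apply le_antisymm
  · have h := Nat.lt_size_self (n - 1)
    exact (Nat.clog_le_iff_le_pow (by norm_num)).2 (by omega)
  · rw [Nat.size_le]
    have := Nat.le_pow_clog (b := 2) (by norm_num) n
    omega

theorem PT_clog {f : α → ℕ} (hf : PT A f) (h1 : ∀ a, 1 ≤ f a) :
    PT A fun a => Nat.clog 2 (f a) :=
  (PT.natSize (hf.sub (PT.const 1))).congr fun a => (clog_two_eq (h1 a)).symm

theorem PBd_two_pow_clog {f : α → ℕ} (hf : PBd f) (h1 : ∀ a, 1 ≤ f a) :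
    PBd fun a => 2 ^ Nat.clog 2 (f a) :=
  ((PBd.const 2).mul hf).mono fun a => (two_pow_clog_lt (h1 a)).le

theorem PT_aI {I : α → EndOfLine} (hI : PT A I) : PT A fun a => aI (I a) :=
  PT_clog (PT_eolN hI) fun a => (I a).one_le

theorem PBd_two_pow_aI {I : α → EndOfLine} (hI : PT A I) : PBd fun a => 2 ^ aI (I a) :=
  PBd_two_pow_clog (PBd_eolN hI) fun a => (I a).one_le

theorem PT_kI {I : α → EndOfLine} (hI : PT A I) : PT A fun a => kI (I a) := by
  unfold kI
  refine PT.add (PT_clog ?_ fun a => by have := (I a).one_le; omega) (PT.const 2)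
  exact PT.add (PT.add (PT_eolN hI) (PT_pN hI).length)
    (PT.mul (PT.const 2) (PT.pow (PT.const 2) (PT_aI hI) (PBd_of_two_pow (PBd_two_pow_aI hI))))

theorem PBd_two_pow_kI {I : α → EndOfLine} (hI : PT A I) : PBd fun a => 2 ^ kI (I a) :=
  ((PBd.const 8).mul (((PBd.const 7).mul (PBd_eolN hI)).add ((PBd.const 3).mul
    ((PBd.length (PT_bgates (PT_eolS hI))).add (PBd.length (PT_bgates (PT_eolP hI))))))).mono
    fun a => (two_pow_kI_lt (I a)).le

/-! ### The start -/

/-- The data of both banks at the start, as a table. -/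
theorem bank_start_mpI {I : α → EndOfLine} {k e κ : α → ℕ} (hI : PT A I) (hk : PT A k)
    (hb : PBd fun a => 2 ^ k a) (he : PT A e) (heb : PBd fun a => 2 ^ e a) {a : α}
    (hf : Fits (I a) (k a) (e a)) (b : Bool) {y : ℕ} (hy : y < 2 ^ k a) :
    (mpI (I a) (k a) (e a) (κ a)).bank (Computes.s0 (mpI (I a) (k a) (e a) (κ a))) b y =
      ((mdI (κ := κ) hI hk hb he heb).valL a []).getD y false := by
  have hc := computes_mpI (κ := κ a) hf
  have h0 : ∀ i < (mpI (I a) (k a) (e a) (κ a)).n,
      (mpI (I a) (k a) (e a) (κ a)).nx true (fun _ => false) i = false := by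
    have h1 := hc.P_eq fun _ => false
    rw [word_zero, (I a).pred_zero, ← word_zero] at h1
    exact word_eq_iff.1 h1
  have h2 := MD.getD_valL (D := mdI (κ := κ) hI hk hb he heb) (a := a) (inp := []) (x := y) hy
  rw [h2]
  refine (bank_start _ h0 b hy).trans ?_
  rfl

end Vale.Agent.P330.H633
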