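import Vale.Agent.P330.H633.MPPTI
import Vale.Agent.P330.H933.PubC

/-!
# The parameters of the machines of the instances, in polynomial time

The instance of `H933.MPar` for the machines of NAND programs and of the instances of End-of-Line.
-/

namespace Vale.Agent.P330.H633

open Vale.Agent.Lib.PolyTime Vale.Agent.P330.H16 Vale.Agent.P330.H874 Vale.Agent.P330.H743
open Vale.Agent.P330.H933

variable {A : Set Word} {α : Type} [Enc α]

theorem MD.mpar (D : MD A α) (hκ : PT A D.κ) (hκb : PBd fun a => 2 ^ D.κ a) : MPar A D.M where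
  k := D.hk
  kbd := D.hb
  κ := hκ
  κbd := hκb
  n := D.hn
  L := D.PT_L
  Lbd := D.PBd_L
  dir := PT.dirS (D.hk.comp PT.fst') (D.PBd_k.comp (PT.fst' (A := A))) PT.snd'
  dir_le _ _ := dirS_le _ _
  sw := ⟨fun a s x => ((D.swL a).getD s []).getD x false,
    PT.getD (PT.getD (D.PT_swL.comp PT.fst') PT.snd'.fst (PT.const [])) PT.snd'.snd
      (PT.const false), fun _ _ hs _ hx => (MD.getD_swL hs hx).symm⟩
  prev := ⟨fun a x => (D.prevL a).getD x 0,
    PT.getD (D.PT_prevL.comp PT.fst') PT.snd' (PT.const 0), fun _ _ hx => (MD.getD_prevL hx).symm⟩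
  off z := D.hoff z

/-- **The parameters of the machines `mpI` are computable in polynomial time.** -/
theorem mpar_mpI {I : α → EndOfLine} {k e κ : α → ℕ} (hI : PT A I) (hk : PT A k)
    (hb : PBd fun a => 2 ^ k a) (he : PT A e) (heb : PBd fun a => 2 ^ e a) (hκ : PT A κ)
    (hκb : PBd fun a => 2 ^ κ a) : MPar A fun a => mpI (I a) (k a) (e a) (κ a) :=
  (mdI (κ := κ) hI hk hb he heb).mpar hκ hκb

end Vale.Agent.P330.H633
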