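import Vale.Agent.P330.H874.MPInst

/-!
# The tables of the machine of a NAND program, in polynomial time

`MD A α`: a family of NAND programs, given in polynomial time; `D.M a` its machine.  The tables of
the switch words, of the positions of the packets, of the previous occurrences, of the values of the
slots, of the sources of the routed words, and their polynomial time.
-/

namespace Vale.Agent.P330.H633

open Vale.Agent.Lib.PolyTime Vale.Agent.P330.H16 Vale.Agent.P330.H874

variable {A : Set Word} {α : Type*} [Enc α]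

/-- A family of NAND programs in polynomial time. -/
structure MD (A : Set Word) (α : Type*) [Enc α] where
  n : α → ℕ
  P : α → List (ℕ × ℕ)
  k : α → ℕ
  κ : α → ℕ
  off : α → Bool → ℕ
  hn : PT A n
  hP : PT A P
  hk : PT A k
  hb : PBd fun a => 2 ^ k a
  hoff : ∀ z, PT A fun a => off a z

/-! ### The sources of the routed words -/

/-- The position before the first `s` stages of the packet which is at `x` after them. -/
def rsrc (M : MP) : ℕ → ℕ → ℕ
  | 0, x => x
  | s + 1, x => rsrc M s (if M.sw s x then x ^^^ 2 ^ M.dir s else x)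

theorem rt_eq_rsrc (M : MP) {β : Type} (w : ℕ → β) (s x : ℕ) : M.rt w s x = w (rsrc M s x) := by
  induction s generalizing x with
  | zero => rfl
  | succ s ih =>
    show M.stg s (M.rt w s) x = w (rsrc M s (if M.sw s x then x ^^^ 2 ^ M.dir s else x))
    unfold MP.stg
    split_ifs with h <;> exact ih _

theorem rsrc_lt {M : MP} (hd : ∀ s < M.L, M.dir s < M.k) {s x : ℕ} (hs : s ≤ M.L)
    (hx : x < 2 ^ M.k) : rsrc M s x < 2 ^ M.k := by
  induction s generalizing x with
  | zero => exact hx
  | succ s ih =>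
    show rsrc M s _ < _
    refine ih (by omega) ?_
    split_ifs
    · exact Nat.xor_lt_two_pow hx (Nat.pow_lt_pow_right (by norm_num) (hd s (by omega)))
    · exact hx

/-- The same from a table of switch words. -/
def rsrcT (k : ℕ) (T : List (List Bool)) : ℕ → ℕ → ℕ
  | 0, x => x
  | s + 1, x => rsrcT k T s (if (T.getD s []).getD x false = true then x ^^^ 2 ^ dirS k s else x)

theorem rsrcT_fold (k : ℕ) (T : List (List Bool)) (s x : ℕ) : rsrcT k T s x =
    (List.range s).reverse.foldl (fun q j =>
      if (T.getD j []).getD q false = true then q ^^^ 2 ^ dirS k j else q) x := by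
  induction s generalizing x with
  | zero => rfl
  | succ s ih =>
    rw [List.range_succ, List.reverse_append, List.reverse_singleton, List.singleton_append,
      List.foldl_cons]
    exact ih _

theorem foldl_lt {k : ℕ} (T : List (List Bool)) (l : List ℕ) {m x : ℕ} (hm : k < m)
    (hx : x < 2 ^ m) : l.foldl (fun q j =>
      if (T.getD j []).getD q false = true then q ^^^ 2 ^ dirS k j else q) x < 2 ^ m := by
  induction l generalizing x with
  | nil => exact hx
  | cons j l ih =>
    rw [List.foldl_cons]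
    refine ih ?_
    split_ifs
    · refine Nat.xor_lt_two_pow hx (Nat.pow_lt_pow_right (by norm_num) ?_)
      have := dirS_le k j
      omega
    · exact hx

theorem PT_rsrcT {k : α → ℕ} {T : α → List (List Bool)} {s x : α → ℕ} (hk : PT A k) (hb : PBd k)
    (hT : PT A T) (hs : PT A s) (hsb : PBd s) (hx : PT A x) :
    PT A (fun a => rsrcT (k a) (T a) (s a) (x a)) := by
  have hstep : PT A (fun p : α × ℕ × ℕ =>
      if ((T p.1).getD p.2.2 []).getD p.2.1 false = true then
        p.2.1 ^^^ 2 ^ H874.dirS (k p.1) p.2.2 else p.2.1) := by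
    have hk1 : PT A (fun p : α × ℕ × ℕ => k p.1) := hk.comp PT.fst'
    have hk2 : PBd (fun p : α × ℕ × ℕ => k p.1) := hb.comp (PT.fst' (A := A))
    have hj : PT A (fun p : α × ℕ × ℕ => p.2.2) := PT.snd'.snd
    have hp : PT A (fun p : α × ℕ × ℕ => p.2.1) := PT.snd'.fst
    refine (PT.cond (PT.getD (PT.getD (hT.comp PT.fst') hj (PT.const [])) hp (PT.const false))
      (PT.flipBit hp (PT.dirS hk1 hk2 hj) (PBd_dirS hk2)) hp).congr fun p => ?_
    cases ((T p.1).getD p.2.2 []).getD p.2.1 false <;> rfl
  have hB : PBd (fun a => esize (x a) + k a + 1) := (hx.pbd.add hb).add (PBd.const 1)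
  refine (PT.foldl (f := fun a q j =>
    if ((T a).getD j []).getD q false = true then q ^^^ 2 ^ H874.dirS (k a) j else q)
    (PT.reverse (PT.range hs hsb)) hx hstep hB fun a i => ?_).congr fun a => ?_
  · refine esize_nat_le (foldl_lt _ _ (by omega) ?_)
    rw [esize_nat (x a)]
    exact (Nat.lt_size_self _).trans_le (Nat.pow_le_pow_right (by norm_num) (by omega))
  · rw [rsrcT_fold]

/-! ### The values of the slots -/

/-- One more value. -/
def valStep (n : ℕ) (pr : List ℕ) (inp w : List Bool) (x : ℕ) : List Bool :=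
  w ++ [if x % 4 = 0 ∧ x < 4 * n then inp.getD (x / 4) false
    else if x % 4 = 1 ∨ (x % 4 = 0 ∧ 4 * n ≤ x) then
      (if pr.getD x 0 < x then w.getD (pr.getD x 0) false else false)
    else if x % 4 = 2 then !(w.getD (x - 2) false && w.getD (x - 1) false)
    else false]

theorem valStep_eq (M : MP) (pr : List ℕ) (inp : List Bool) {x : ℕ}
    (hpr : pr.getD x 0 = M.prev x) :
    valStep M.n pr inp (tab x (M.val fun i => inp.getD i false)) x =
      tab (x + 1) (M.val fun i => inp.getD i false) := by
  unfold valStep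
  have e : tab (x + 1) (M.val fun i => inp.getD i false) =
      tab x (M.val fun i => inp.getD i false) ++ [M.val (fun i => inp.getD i false) x] := by
    unfold tab
    rw [List.range_succ, List.map_append]
    rfl
  rw [e]
  congr 2
  rw [MP.val, hpr]
  unfold MP.isIn MP.isCopy
  simp only [decide_eq_true_eq]
  split_ifs with h1 h2 h3 h4
  · rfl
  · exact getD_tab _ _ h3
  · rfl
  · rw [getD_tab _ _ (by omega), getD_tab _ _ (by omega)]
  · rfl

theorem valStep_fold (M : MP) (pr : List ℕ) (inp : List Bool) {N : ℕ}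
    (hpr : ∀ x < N, pr.getD x 0 = M.prev x) :
    (List.range N).foldl (valStep M.n pr inp) [] =
      tab N (M.val fun i => inp.getD i false) := by
  induction N with
  | zero => rfl
  | succ N ih =>
    rw [List.range_succ, List.foldl_append, ih fun x hx => hpr x (by omega)]
    exact valStep_eq M pr inp (hpr N (by omega))

theorem foldl_valStep_length (n : ℕ) (pr : List ℕ) (inp : List Bool) (l : List ℕ)
    (w : List Bool) : (l.foldl (valStep n pr inp) w).length = w.length + l.length := by
  induction l generalizing w with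
  | nil => rfl
  | cons x l ih =>
    rw [List.foldl_cons, ih]
    unfold valStep
    rw [List.length_append]
    simp only [List.length_cons, List.length_nil]
    omega

theorem PT_valStep {n : α → ℕ} {pr : α → List ℕ} {inp w : α → List Bool} {x : α → ℕ}
    (hn : PT A n) (hpr : PT A pr) (hi : PT A inp) (hw : PT A w) (hx : PT A x) :
    PT A (fun a => valStep (n a) (pr a) (inp a) (w a) (x a)) := by
  have hm : PT A (fun a => x a % 4) := PT.mod hx (PT.const 4)
  have h4 : PT A (fun a => 4 * n a) := (PT.const 4).mul hn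
  have hp : PT A (fun a => (pr a).getD (x a) 0) := PT.getD hpr hx (PT.const 0)
  unfold valStep
  refine PT.append hw (PT.cons ?_ PT.nil)
  refine PT.ite (PT.decide_and (PT.eqNat hm (PT.const 0)) (PT.lt hx h4))
    (PT.getD hi (PT.div hx (PT.const 4)) (PT.const false)) ?_
  refine PT.ite (PT.decide_or (PT.eqNat hm (PT.const 1))
    (PT.decide_and (PT.eqNat hm (PT.const 0)) (PT.le h4 hx)))
    (PT.ite (PT.lt hp hx) (PT.getD hw hp (PT.const false)) (PT.const false)) ?_
  exact PT.ite (PT.eqNat hm (PT.const 2))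
    (PT.not (PT.and (PT.getD hw (PT.sub hx (PT.const 2)) (PT.const false))
      (PT.getD hw (PT.sub hx (PT.const 1)) (PT.const false)))) (PT.const false)

/-- Only the input cells matter. -/
theorem val_congr' (M : MP) {f g : ℕ → Bool} (h : ∀ i < M.n, f i = g i) (x : ℕ) :
    M.val f x = M.val g x := by
  induction x using Nat.strong_induction_on with
  | _ x ih =>
    rw [MP.val, MP.val.eq_def M g x]
    by_cases h1 : M.isIn x = true
    · rw [if_pos h1, if_pos h1]
      refine h _ ?_
      unfold MP.isIn at h1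
      rw [decide_eq_true_eq] at h1
      omega
    · rw [if_neg h1, if_neg h1]
      by_cases h2 : M.isCopy x = true
      · rw [if_pos h2, if_pos h2]
        by_cases h3 : M.prev x < x
        · rw [dif_pos h3, dif_pos h3, ih _ h3]
        · rw [dif_neg h3, dif_neg h3]
      · rw [if_neg h2, if_neg h2]
        by_cases h3 : x % 4 = 2
        · rw [if_pos h3, if_pos h3, ih (x - 2) (by omega), ih (x - 1) (by omega)]
        · rw [if_neg h3, if_neg h3]

/-- The data of both banks at the start. -/
theorem bank_start (M : MP) (h0 : ∀ i < M.n, M.nx true (fun _ => false) i = false) (b : Bool)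
    {y : ℕ} (hy : y < 2 ^ M.k) :
    M.bank ⟨true, fun _ => false, 2 ^ M.k⟩ b y = M.val (fun _ => false) y := by
  unfold MP.bank
  cases b
  · simp only [Bool.false_eq_true, if_false, hy, decide_true, Bool.true_and]
    exact val_congr' M h0 y
  · simp

/-! ### The tables -/

namespace MD

variable (D : MD A α)

/-- The machine. -/
def M (a : α) : MP := mpOf (D.n a) (D.P a) (D.k a) (D.κ a) (D.off a)

/-- The table of the switch words. -/
def swL (a : α) : List (List Bool) := swP (D.n a) (D.P a) (D.k a)

/-- The table of the positions. -/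
def posL (a : α) : List (List ℕ) := posP (D.n a) (D.P a) (D.k a)

/-- The table of the previous occurrences. -/
def prevL (a : α) : List ℕ :=
  tab (2 ^ D.k a) fun x => (prevO (fn none (srcL (D.n a) (D.P a) (D.k a))) (2 ^ D.k a) x).getD 0

/-- The table of the sources of the routed words. -/
def rsrcL (a : α) : List (List ℕ) :=
  tab (stN (D.k a) + 1) fun s => tab (2 ^ D.k a) fun x => rsrc (D.M a) s x

/-- The table of the values of the slots. -/
def valL (a : α) (inp : List Bool) : List Bool :=
  tab (2 ^ D.k a) ((D.M a).val fun i => inp.getD i false)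

/-- The table of the outputs of the circuit `z`. -/
def nxL (z : Bool) (a : α) (inp : List Bool) : List Bool :=
  tab (D.n a) ((D.M a).nx z fun i => inp.getD i false)

/-- The tables of the differences of the routed words in the direction of the stages. -/
def difL (a : α) (w : List Bool) : List (List Bool) :=
  tab (stN (D.k a)) fun s => tab (2 ^ D.k a) fun x =>
    xor ((D.M a).rt (fn false w) s x) ((D.M a).rt (fn false w) s (x ^^^ 2 ^ (D.M a).dir s))

/-- The table of the first (`j = 2`) and the second (`j = 3`) inputs of the gates. -/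
def gateL (a : α) (j : ℕ) (w : List Bool) : List Bool :=
  tab (2 ^ D.k a) fun x => decide (x % 4 = 2) && w.getD (x ^^^ j) false

variable {D}

theorem getD_swL {a : α} {s x : ℕ} (hs : s < (D.M a).L) (hx : x < 2 ^ D.k a) :
    ((D.swL a).getD s []).getD x false = (D.M a).sw s x := getD_swP hs hx

theorem getD_posL {a : α} {s y : ℕ} (hs : s ≤ (D.M a).L) (hy : y < 2 ^ D.k a) :
    ((D.posL a).getD s []).getD y 0 = (D.M a).pos y s := by
  unfold posL M
  rw [getD_posP hs hy, mpOf_pos]

theorem getD_prevL {a : α} {x : ℕ} (hx : x < 2 ^ D.k a) :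
    (D.prevL a).getD x 0 = (D.M a).prev x := by
  unfold prevL
  rw [getD_tab _ _ hx]
  have e : prevO (fn none (srcL (D.n a) (D.P a) (D.k a))) (2 ^ D.k a) x =
      prevO (srcP (D.n a) (D.P a)) (2 ^ D.k a) x := prevO_congr hx fun y hy => fn_tab _ _ hy
  rw [e]
  rfl

theorem getD_rsrcL {a : α} {s x : ℕ} (hs : s ≤ (D.M a).L) (hx : x < 2 ^ D.k a) :
    ((D.rsrcL a).getD s []).getD x 0 = rsrc (D.M a) s x := by
  have h1 : s < stN (D.k a) + 1 := Nat.lt_succ_of_le hs
  unfold rsrcL
  rw [getD_tab _ _ h1, getD_tab _ _ hx]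

theorem getD_valL {a : α} {inp : List Bool} {x : ℕ} (hx : x < 2 ^ D.k a) :
    (D.valL a inp).getD x false = (D.M a).val (fun i => inp.getD i false) x := getD_tab _ _ hx

theorem length_valL {a : α} {inp : List Bool} : (D.valL a inp).length = 2 ^ D.k a :=
  length_tab _ _

theorem getD_nxL {a : α} {z : Bool} {inp : List Bool} {i : ℕ} (hi : i < D.n a) :
    (D.nxL z a inp).getD i false = (D.M a).nx z (fun i => inp.getD i false) i := getD_tab _ _ hi

theorem getD_difL {a : α} {w : List Bool} {s x : ℕ} (hs : s < (D.M a).L) (hx : x < 2 ^ D.k a) :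
    ((D.difL a w).getD s []).getD x false =
      xor ((D.M a).rt (fn false w) s x)
        ((D.M a).rt (fn false w) s (x ^^^ 2 ^ (D.M a).dir s)) := by
  have h1 : s < stN (D.k a) := hs
  unfold difL
  rw [getD_tab _ _ h1, getD_tab _ _ hx]

theorem getD_gateL {a : α} {j : ℕ} {w : List Bool} {x : ℕ} (hx : x < 2 ^ D.k a) :
    (D.gateL a j w).getD x false = (decide (x % 4 = 2) && w.getD (x ^^^ j) false) :=
  getD_tab _ _ hx

/-! ### Polynomial time -/

theorem PBd_k : PBd D.k := PBd_of_two_pow D.hb

theorem PT_two_pow : PT A fun a => 2 ^ D.k a := PT.pow (PT.const 2) D.hk D.PBd_k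

theorem PT_L : PT A fun a => (D.M a).L := PT.stN D.hk

theorem PBd_L : PBd fun a => (D.M a).L := PBd_stN D.PBd_k

theorem PT_dir {s : α → ℕ} (hs : PT A s) : PT A fun a => (D.M a).dir (s a) :=
  PT.dirS D.hk D.PBd_k hs

theorem PT_off {z : α → Bool} (hz : PT A z) : PT A fun a => (D.M a).off (z a) :=
  (PT.cond hz (D.hoff true) (D.hoff false)).congr fun a => by
    show _ = D.off a (z a)
    cases z a <;> rfl

theorem PT_swL : PT A D.swL := PT.swP D.hn D.hP D.hk D.hb

theorem PT_posL : PT A D.posL := PT.posP D.hn D.hP D.hk D.hb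

theorem PT_prevL : PT A D.prevL := by
  unfold prevL
  refine PT.tab D.PT_two_pow D.hb (PT.optGetD (PT.prevO
    ((PT.srcL D.hn D.hP D.hk D.hb).comp PT.fst') (D.PT_two_pow.comp PT.fst')
    (D.hb.comp (PT.fst' (A := A))) PT.snd') (PT.const 0))

theorem rsrcT_swL {a : α} {s x : ℕ} (hs : s ≤ stN (D.k a)) (hx : x < 2 ^ D.k a) :
    rsrcT (D.k a) (D.swL a) s x = rsrc (D.M a) s x := by
  induction s generalizing x with
  | zero => rfl
  | succ s ih =>
    have hs' : s < (D.M a).L := hs
    show rsrcT (D.k a) (D.swL a) s (if ((D.swL a).getD s []).getD x false = true then _ else _) =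
      rsrc (D.M a) s (if (D.M a).sw s x then _ else _)
    rw [getD_swL hs' hx]
    refine ih (by omega) ?_
    split_ifs
    · exact Nat.xor_lt_two_pow hx (Nat.pow_lt_pow_right (by norm_num) (dirS_lt hs))
    · exact hx

theorem PT_rsrcL : PT A D.rsrcL := by
  have hL : PT A (fun a => H874.stN (D.k a) + 1) := PT.add (PT.stN D.hk) (PT.const 1)
  have hLb : PBd (fun a => H874.stN (D.k a) + 1) := (PBd_stN D.PBd_k).add (PBd.const 1)
  have h1 : PT A (fun a => H874.tab (H874.stN (D.k a) + 1) fun s => H874.tab (2 ^ D.k a) fun x =>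
      rsrcT (D.k a) (D.swL a) (min s (H874.stN (D.k a))) x) := by
    refine PT.tab hL hLb (PT.tab (D.PT_two_pow.comp PT.fst') (D.hb.comp (PT.fst' (A := A))) ?_)
    refine PT_rsrcT (D.hk.comp PT.fst'.fst) (D.PBd_k.comp (PT.fst' (A := A)).fst)
      (D.PT_swL.comp PT.fst'.fst) (PT.min PT.fst'.snd ((PT.stN D.hk).comp PT.fst'.fst)) ?_ PT.snd'
    exact (((PBd_stN D.PBd_k).comp (PT.fst' (A := A)).fst)).mono fun _ => min_le_right _ _
  refine h1.congr fun a => ?_
  unfold rsrcL
  refine tab_congr fun s hs => tab_congr fun x hx => ?_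
  rw [min_eq_left (by omega), rsrcT_swL (by omega) hx]

theorem PT_valL {inp : α → List Bool} (hi : PT A inp) : PT A fun a => D.valL a (inp a) := by
  have hB : PBd (fun a => 3 * 2 ^ D.k a) := (PBd.const 3).mul D.hb
  have h1 : PT A (fun a => (List.range (2 ^ D.k a)).foldl
      (valStep (D.n a) (D.prevL a) (inp a)) []) := by
    refine PT.foldl (f := fun a => valStep (D.n a) (D.prevL a) (inp a))
      (PT.range D.PT_two_pow D.hb) (PT.const []) ?_ hB fun a i => ?_
    · exact PT_valStep (D.hn.comp PT.fst') (D.PT_prevL.comp PT.fst') (hi.comp PT.fst')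
        PT.snd'.fst PT.snd'.snd
    · have h2 : esize (((List.range (2 ^ D.k a)).take i).foldl
          (valStep (D.n a) (D.prevL a) (inp a)) []) ≤ _ * (2 * 1 + 1) :=
        esize_list_le fun b _ => (esize_bool b).le
      refine h2.trans ?_
      rw [foldl_valStep_length, List.length_nil, List.length_take, List.length_range]
      have := min_le_right i (2 ^ D.k a)
      omega
  refine h1.congr fun a => ?_
  exact valStep_fold (D.M a) (D.prevL a) (inp a) fun x hx => getD_prevL hx

theorem PT_nxL {z : Bool} {inp : α → List Bool} (hi : PT A inp)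
    (h4 : ∀ a, 4 * D.n a ≤ 2 ^ D.k a) (ho : ∀ a z, D.off a z < 2 ^ D.k a) :
    PT A fun a => D.nxL z a (inp a) := by
  have h1 : PT A (fun a => H874.tab (D.n a) fun i =>
      (D.valL a (inp a)).getD ((4 * i) ^^^ D.off a z) false) := by
    refine PT.tab D.hn (D.hb.mono fun a => by have := h4 a; omega) ?_
    exact PT.getD ((PT_valL hi).comp PT.fst')
      (PT.natXor ((PT.const 4).mul PT.snd') ((D.hoff z).comp PT.fst')) (PT.const false)
  refine h1.congr fun a => ?_
  unfold nxL
  refine tab_congr fun i hi => ?_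
  rw [getD_valL (Nat.xor_lt_two_pow (by have := h4 a; omega) (ho a z))]
  rfl

theorem PT_difL {w : α → List Bool} (hw : PT A w) : PT A fun a => D.difL a (w a) := by
  have h1 : PT A (fun a => H874.tab (H874.stN (D.k a)) fun s => H874.tab (2 ^ D.k a) fun x =>
      xor ((w a).getD (((D.rsrcL a).getD s []).getD x 0) false)
        ((w a).getD (((D.rsrcL a).getD s []).getD (x ^^^ 2 ^ (D.M a).dir s) 0) false)) := by
    refine PT.tab (PT.stN D.hk) (PBd_stN D.PBd_k)
      (PT.tab (D.PT_two_pow.comp PT.fst') (D.hb.comp (PT.fst' (A := A))) ?_)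
    have hR : PT A (fun p : (α × ℕ) × ℕ => (D.rsrcL p.1.1).getD p.1.2 []) :=
      PT.getD (D.PT_rsrcL.comp PT.fst'.fst) PT.fst'.snd (PT.const [])
    have hd : PT A (fun p : (α × ℕ) × ℕ => (D.M p.1.1).dir p.1.2) :=
      PT.dirS (D.hk.comp PT.fst'.fst) (D.PBd_k.comp (PT.fst' (A := A)).fst) PT.fst'.snd
    have hdb : PBd (fun p : (α × ℕ) × ℕ => (D.M p.1.1).dir p.1.2) :=
      PBd_dirS (D.PBd_k.comp (PT.fst' (A := A)).fst)
    exact PT.xor (PT.getD (hw.comp PT.fst'.fst) (PT.getD hR PT.snd' (PT.const 0)) (PT.const false))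
      (PT.getD (hw.comp PT.fst'.fst) (PT.getD hR (PT.flipBit PT.snd' hd hdb) (PT.const 0))
        (PT.const false))
  refine h1.congr fun a => ?_
  unfold difL
  refine tab_congr fun s hs => tab_congr fun x hx => ?_
  have hs' : s ≤ (D.M a).L := le_of_lt hs
  have hx' : x ^^^ 2 ^ (D.M a).dir s < 2 ^ D.k a :=
    Nat.xor_lt_two_pow hx (Nat.pow_lt_pow_right (by norm_num) (dirS_lt hs))
  rw [getD_rsrcL hs' hx, getD_rsrcL hs' hx', rt_eq_rsrc, rt_eq_rsrc]
  rfl

theorem PT_gateL {j : α → ℕ} {w : α → List Bool} (hj : PT A j) (hw : PT A w) :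
    PT A fun a => D.gateL a (j a) (w a) := by
  unfold gateL
  refine PT.tab D.PT_two_pow D.hb ?_
  exact PT.and (PT.eqNat (PT.mod PT.snd' (PT.const 4)) (PT.const 2))
    (PT.getD (hw.comp PT.fst') (PT.natXor PT.snd' (hj.comp PT.fst')) (PT.const false))

/-- one switch bit -/
theorem PT_sw {s x : α → ℕ} (hs : PT A s) (hx : PT A x) (hs' : ∀ a, s a < (D.M a).L)
    (hx' : ∀ a, x a < 2 ^ D.k a) : PT A fun a => (D.M a).sw (s a) (x a) :=
  (PT.getD (PT.getD D.PT_swL hs (PT.const [])) hx (PT.const false)).congr fun a =>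
    getD_swL (hs' a) (hx' a)

/-- one position -/
theorem PT_pos {s y : α → ℕ} (hs : PT A s) (hy : PT A y) (hs' : ∀ a, s a ≤ (D.M a).L)
    (hy' : ∀ a, y a < 2 ^ D.k a) : PT A fun a => (D.M a).pos (y a) (s a) :=
  (PT.getD (PT.getD D.PT_posL hs (PT.const [])) hy (PT.const 0)).congr fun a =>
    getD_posL (hs' a) (hy' a)

/-- one value -/
theorem PT_val {inp : α → List Bool} {x : α → ℕ} (hi : PT A inp) (hx : PT A x)
    (hx' : ∀ a, x a < 2 ^ D.k a) :
    PT A fun a => (D.M a).val (fun i => (inp a).getD i false) (x a) :=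
  (PT.getD (PT_valL hi) hx (PT.const false)).congr fun a => getD_valL (hx' a)

end MD

end Vale.Agent.P330.H633
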