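import Vale.Agent.P330.H155.TopMach
import Vale.Agent.P330.W.H912.Main
import Vale.Agent.P330.PTEol

/-!
# The solution of an end of the path

`solT`: from the typed blocks of all sites, the words in the input slots of the two banks of the two
sides are read; the first of them which is a solution is the output. `solT_ok`: if the blocks are
those of a valid configuration without valid successor (or different from the start and without
valid predecessor), then the output is a solution.
-/

namespace Vale.Agent.P330.H633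

open Vale.Agent.Lib.PolyTime Vale.Agent.P330.H16 Vale.Agent.P330.H797 Vale.Agent.P330.H155
open Vale.Agent.P330.H743 Vale.Agent.P330.Q Vale.Agent.P330.W.H912

/-! ### The functions -/

section Fun

variable {T : Type} (siteN : EndOfLine × ℕ → ℕ) (regN : Bool → EndOfLine → ℕ)
  (one : EndOfLine × T → Bool) (d : T)

/-- The word in the input slots of bank `b` of side `σ`. -/
def cand (σ b : Bool) (x : EndOfLine × List (LB T)) : List Bool :=
  (List.range x.1.n).map fun i =>
    one (x.1, ((x.2.getD (siteN (x.1, 4 * i)) (false, [], [])).st σ).getD (regN b x.1) d)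

/-- The solution. -/
def solT (x : EndOfLine × List (LB T)) : List Bool :=
  if x.1.isSol (cand siteN regN one d false false x) then cand siteN regN one d false false x
  else if x.1.isSol (cand siteN regN one d false true x) then cand siteN regN one d false true x
  else if x.1.isSol (cand siteN regN one d true false x) then cand siteN regN one d true false x
  else cand siteN regN one d true true x

variable {siteN regN one d}

theorem isSolution_solT {x : EndOfLine × List (LB T)} (σ b : Bool)
    (h : x.1.IsSolution (cand siteN regN one d σ b x)) :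
    x.1.IsSolution (solT siteN regN one d x) := by
  rw [← EndOfLine.isSol_iff] at h ⊢
  unfold solT
  split_ifs with h1 h2 h3
  · exact h1
  · exact h2
  · exact h3
  · cases σ <;> cases b
    · exact absurd h h1
    · exact absurd h h2
    · exact absurd h h3
    · exact h

variable {A : Set Word} [Enc T]

theorem PT_cand (hs : PT A siteN) (hr : ∀ b, PT A (regN b)) (ho : PT A one) (σ b : Bool) :
    PT A (cand siteN regN one d σ b) := by
  have hst : PT A (fun p : (EndOfLine × List (LB T)) × ℕ =>
      (p.1.2.getD (siteN (p.1.1, 4 * p.2)) (false, [], [])).st σ) := by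
    have h1 : PT A (fun p : (EndOfLine × List (LB T)) × ℕ =>
        p.1.2.getD (siteN (p.1.1, 4 * p.2)) (false, [], [])) :=
      PT.getD PT.fst'.snd (hs.comp (PT.fst'.fst.pair ((PT.const 4).mul PT.snd'))) (PT.const _)
    cases σ
    · exact h1.snd.fst
    · exact h1.snd.snd
  refine PT.map (PT.range (PT_eolN PT.fst') (PBd_eolN (A := A) PT.fst')) ?_
  exact ho.comp (PT.fst'.fst.pair (PT.getD hst ((hr b).comp PT.fst'.fst) (PT.const d)))

/-- **The solution is computed in polynomial time.** -/
theorem PT_solT (hs : PT A siteN) (hr : ∀ b, PT A (regN b)) (ho : PT A one) :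
    PT A (solT siteN regN one d) := by
  have h := fun σ b => PT_cand (d := d) hs hr ho σ b
  have hi : ∀ σ b, PT A (fun x : EndOfLine × List (LB T) =>
      decide (x.1.isSol (cand siteN regN one d σ b x) = true)) := fun σ b =>
    (PT_isSol PT.fst' (h σ b)).congr fun x => by simp
  exact PT.ite (hi false false) (h false false) (PT.ite (hi false true) (h false true)
    (PT.ite (hi true false) (h true false) (h true true)))

end Fun

/-! ### Correctness -/

section

variable {J Γ B F iJ iG T : Type} [AddCommGroup J] [Fintype J] [Group Γ] [Fintype Γ]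
  [DistribMulAction Γ J] [Field F] {n K N : ℕ} {RR : RS J Γ B F iJ iG n}
  {W : H840.Wires RR.S RR.g.gG RR.g.sJ K} {DL DR : (B → Option F) → B → F}
  {siteN : EndOfLine × ℕ → ℕ} {regN : Bool → EndOfLine → ℕ} {one : EndOfLine × T → Bool} {d : T}
  {I : EndOfLine} {rp : (B → F) → T} {num : J × Γ ≃ Fin N}

omit [Fintype Γ] in
open Classical in
theorem cand_eq {D : Dyn (Fin n → J → F)} (hS : RR.S.Good)
    (w : (RR.sysOf W DL DR D).sys.Cf) (σ b : Bool) (ib : Fin n) (y : ℕ → J)
    (hsite : ∀ i < I.n, siteN (I, 4 * i) = (num (y i, 1) : ℕ))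
    (hreg : regN b I = ib * RR.q + RR.reg0)
    (hone : ∀ s, one (I, rp s) = decide (s RR.S.b0 = 1)) :
    cand siteN regN one d σ b
      (I, List.ofFn fun j => toLB rp ((RR.sysOf W DL DR D).sys.bsys.word w (num.symm j))) =
    (List.range I.n).map fun i => decide (w.1.base σ ib (y i) = 1) := by
  unfold cand
  refine List.map_congr_left fun i hi => ?_
  have hi' : i < I.n := List.mem_range.1 hi
  simp only
  rw [hsite i hi']
  have e1 : (List.ofFn fun j => toLB rp
      ((RR.sysOf W DL DR D).sys.bsys.word w (num.symm j))).getD (num (y i, 1)) (false, [], []) =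
      toLB rp ((RR.sysOf W DL DR D).sys.bsys.word w (y i, 1)) := by
    rw [List.getD_eq_getElem _ _ (by rw [List.length_ofFn]; exact (num (y i, 1)).2),
      List.getElem_ofFn]
    congr 2
    exact num.symm_apply_apply _
  have hlt : regN b I < n * RR.q := by
    rw [hreg]
    have h2 := RR.reg0_lt
    calc ib * RR.q + RR.reg0 < ib * RR.q + RR.q := by omega
      _ = (ib + 1) * RR.q := by ring
      _ ≤ n * RR.q := Nat.mul_le_mul_right _ ib.2
  rw [e1, toLB_st]
  have e2 : (((RR.sysOf W DL DR D).sys.bsys.word w (y i, 1)).st σ).map rp =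
      (List.range (n * RR.q + w.1.ht σ)).map
        fun j => rp ((RR.sysOf W DL DR D).row (w.1.base σ) j (y i, 1)) := by
    show (((List.range _).map _).map rp) = _
    rw [List.map_map]
    rfl
  rw [e2, List.getD_eq_getElem _ _ (by rw [List.length_map, List.length_range]; omega),
    List.getElem_map, List.getElem_range, hone]
  have e3 : (RR.sysOf W DL DR D).row (w.1.base σ) (regN b I) (y i, 1) =
      RR.row (w.1.base σ) (regN b I) (y i, 1) := H840.datOf_row hS _ _ _
  rw [e3, hreg]
  have e4 : ∀ (x : Fin n → J → F) (z : J),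
      RR.row x (ib * RR.q + RR.reg0) (z, 1) RR.S.b0 = x ib z := by
    intro x z
    unfold RS.row
    rw [RS.cnt_base0 hS, Cd.E_b0 hS]
  exact congrArg (fun t : F => decide (t = 1)) (e4 _ _)

variable {M : MP} {Rs : RSys M.κ F} {pub : ℕ → Ct M.κ F} {P : HProg F}
  {enc : Cont M.κ F → Fin n → Ct M.κ F} {g : Gen J Γ F iJ iG}

omit [Fintype Γ] in
/-- **The solution.** -/
theorem solT_ok [CharP F 2] (hT : TopOK M Rs pub P enc) (ψ : J ≃+ V2 M.κ) (hg : g.Via pub ψ)
    (hE : M.κ ≤ g.nE) (hP : M.κ ≤ g.nP) (hM : M.Good) (hI : Computes M I) (hS : RR.S.Good)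
    (hL : 0 < RR.L) (iw : Bool → Fin n) (henc : ∀ c b, enc c (iw b) = c.w b)
    (hsite : ∀ i < I.n, siteN (I, 4 * i) = (num (ψ.symm (pt M.κ (4 * i)), 1) : ℕ))
    (hreg : ∀ b, regN b I = iw b * RR.q + RR.reg0)
    (hone : ∀ s, one (I, rp s) = open Classical in decide (s RR.S.b0 = 1))
    (w : (RR.sysOf W DL DR (hT.dynJ ψ hg hE hP hM hI)).sys.Cf)
    (hw : (RR.sysOf W DL DR (hT.dynJ ψ hg hE hP hM hI)).sys.bsys.Valid w)
    (hw' : ¬ (RR.sysOf W DL DR (hT.dynJ ψ hg hE hP hM hI)).sys.bsys.Valid
        ((RR.sysOf W DL DR (hT.dynJ ψ hg hE hP hM hI)).sys.bsys.step false w) ∨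
      (w ≠ (RR.sysOf W DL DR (hT.dynJ ψ hg hE hP hM hI)).sys.bsys.w0 ∧
        ¬ (RR.sysOf W DL DR (hT.dynJ ψ hg hE hP hM hI)).sys.bsys.Valid
        ((RR.sysOf W DL DR (hT.dynJ ψ hg hE hP hM hI)).sys.bsys.step true w))) :
    I.IsSolution (solT siteN regN one d (I, List.ofFn fun j => toLB rp
      ((RR.sysOf W DL DR (hT.dynJ ψ hg hE hP hM hI)).sys.bsys.word w (num.symm j)))) := by
  classical
  -- the revealed configuration
  have key : ∃ (σ : Bool) (c : Cont M.κ F), w.1.base σ = toJ ψ (enc c) ∧
      I.IsSolution (Computes.readC M c) := by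
    have hve : (hT.dynJ ψ hg hE hP hM hI).VE RR.L w.1 := hw
    rcases hw' with h | ⟨h0, h⟩
    · obtain ⟨h1, h2⟩ := Dyn.reveal_false hL hve h
      obtain ⟨c, hc, hx, hc'⟩ := mapDyn_reveal h1 h2
      exact ⟨false, c, hx, hI.reveal_false Rs hM hc hc'⟩
    · have h0' : w.1 ≠ (hT.dynJ ψ hg hE hP hM hI).st0 RR.L := fun e => h0 (Subtype.ext e)
      obtain ⟨h1, h3, h2⟩ := Dyn.reveal_true hL hve h0' h
      obtain ⟨c, hc, hx, hc'⟩ := mapDyn_reveal h1 h2
      refine ⟨true, c, hx, hI.reveal_true Rs hM hc (fun e => h3 ?_) hc'⟩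
      rw [hx, e]
      rfl
  obtain ⟨σ, c, hx, hc⟩ := key
  refine isSolution_solT σ c.z ?_
  rw [cand_eq hS w σ c.z (iw c.z) (fun i => ψ.symm (pt M.κ (4 * i))) hsite (hreg _) hone]
  have e : Computes.readC M c =
      (List.range I.n).map fun i => decide (w.1.base σ (iw c.z) (ψ.symm (pt M.κ (4 * i))) = 1) := by
    unfold Computes.readC word
    rw [hI.n_eq]
    refine List.map_congr_left fun i _ => ?_
    rw [hx]
    show _ = decide (enc c (iw c.z) (ψ (ψ.symm (pt M.κ (4 * i)))) = 1)
    rw [henc, AddEquiv.apply_symm_apply]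
  rw [e] at hc
  convert hc

end

end Vale.Agent.P330.H633

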