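import Vale.Agent.P330.H633.Sol
import Vale.Agent.P330.W.H281.RestJ

/-!
# The solution for the family of register systems

The fields `solT`, `solT_pt`, `solT_ok` of `SIn` for `TopJ.Y`: `solJ T : SolIn T`.
-/

namespace Vale.Agent.P330.H633

open Vale.Agent.Lib.PolyTime Vale.Agent.P330.H16 Vale.Agent.P330.H797 Vale.Agent.P330.H155
open Vale.Agent.P330.H743 Vale.Agent.P330.Q Vale.Agent.P330.W.H912
open Vale.Agent.P330.H840 (A0 lqJ dJ leJ kapJ mpJ degJ)
open Vale.Agent.P330.H604 (cG gn GT)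

/-- The number of the site `(p, 1)`. -/
noncomputable def siteJ (x : EndOfLine × ℕ) : ℕ :=
  jNJ.sn x.1 (jNJ.val x.1 (x.2 % 2 ^ jNJ.κ x.1), 1)

/-- The number of the base register of the word of a bank. -/
noncomputable def regJ (b : Bool) (I : EndOfLine) : ℕ :=
  (kI I + 2 + b.toNat) * (cG (lqJ I) * nLab A0) + (A0.b0 + nLab A0 * gn (lqJ I) 1)

/-- The bit of a symbol. -/
noncomputable def oneJ (x : EndOfLine × List Bool) : Bool := by
  classical
  exact decide (H985.vS (D := nLab A0) (leJ x.1) x.2 A0.b0 = 1)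

/-! ### Polynomial time -/

theorem PT_siteJ : PT ∅ siteJ :=
  H604.JNum.ST.mk (N := jNJ) PT.fst' (H604.JNum.JT.ofNum PT.fst' PT.snd')
    (GT.one (gparJ.comp PT.fst'))

theorem PT_regJ (b : Bool) : PT ∅ (regJ b) :=
  (((PT_kI PT.id).add (PT.const 2)).add (PT.const b.toNat)).mul
    ((H604.PT_cG gparJ).mul (PT.const _)) |>.add
    ((PT.const _).add ((PT.const _).mul (GT.one gparJ)))

theorem PT_oneJ : PT ∅ oneJ := by
  classical
  exact H933.FT.eq (H985.FT.vS (lparJ.comp PT.fst') PT.snd' A0.b0) H933.FT.one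

/-- The default symbol. -/
def dJ0 : List Bool := []

/-- **The solution is computed in polynomial time.** -/
theorem PT_solJ : PT ∅ (solT siteJ regJ oneJ dJ0) := PT_solT PT_siteJ PT_regJ PT_oneJ

/-! ### Correctness -/

/-- The index of the base content of the word of a bank. -/
noncomputable def iwJ (I : EndOfLine) (b : Bool) : Fin (nJ I) :=
  ⟨kI I + 2 + b.toNat, by
    unfold nJ nB
    show kI I + 2 + b.toNat < kI I + 2 * (mpJ I).L + 6
    cases b <;> simp <;> omega⟩

theorem enc_iwJ (I : EndOfLine) (c : Cont (mpJ I).κ (H933.Fl (leJ I))) (b : Bool) :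
    H743.enc (mpJ I).k (mpJ I).L c (iwJ I b) = c.w b := lst_w (ofC c) b

theorem siteJ_eq (I : EndOfLine) (p : ℕ) : siteJ (I, p) =
    (numJ I ((H675.jco (lqJ I) (dJ I) (degJ I)).symm (pt (mpJ I).κ p), 1) : ℕ) := by
  show jNJ.sn I _ = jNJ.sn I _
  congr 2
  refine (((H675.jco (lqJ I) (dJ I) (degJ I)).symm_apply_eq).2 ?_).symm
  have h : ∀ j : Fin (H675.kap (lqJ I) (dJ I)), (if p.testBit j = true then (1 : ZMod 2) else 0) =
      H675.jco (lqJ I) (dJ I) (degJ I) (H675.jv (lqJ I) (dJ I)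
        (p % 2 ^ H675.kap (lqJ I) (dJ I))) j := fun j => by
    rw [H675.jv_mod, H675.jco_jv]
  exact funext h

/-- **The solution.** -/
theorem solJ_ok (T : TopJ) (I : EndOfLine) (w : (T.Y I).Cf) (hw : (T.Y I).bsys.Valid w)
    (hw' : ¬ (T.Y I).bsys.Valid ((T.Y I).bsys.step false w) ∨
      (w ≠ (T.Y I).bsys.w0 ∧ ¬ (T.Y I).bsys.Valid ((T.Y I).bsys.step true w))) :
    I.IsSolution (solT siteJ regJ oneJ dJ0 (I, List.ofFn fun j =>
      toLB (H985.cS (leJ I)) ((T.Y I).bsys.word w ((numJ I).symm j)))) := by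
  classical
  refine solT_ok (RR := T.rs I) (rp := H985.cS (leJ I)) (num := numJ I) (T.ok I)
    (H675.jco (lqJ I) (dJ I) (degJ I)) (via_genI (degJ I) (pubJ I)) le_rfl le_rfl
    (H840.mpJ_good I) (H840.computes_mpJ I) (T.good I) ?_ (iwJ I) (enc_iwJ I)
    (fun i _ => siteJ_eq I (4 * i)) (fun b => rfl) ?_ w hw hw'
  · exact Nat.mul_pos (Nat.add_pos_left (TopJ.nJ_pos I) _) (T.kitOK I).KL_pos
  · intro s
    unfold oneJ
    rw [H985.vS_cS]
    rfl

/-- **The reading of the solution for the family.** -/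
noncomputable def solJ (T : TopJ) : H281.SolIn T where
  solT := solT siteJ regJ oneJ dJ0
  solT_pt := PT_solJ
  solT_ok := solJ_ok T

end Vale.Agent.P330.H633
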